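import Vale.Agent.P092.H495.Ucp

/-!
P092 (helper495), TEAM P, ultrametric `k`: the package of [0] for a generalised quadrangle.
`C`, `M` = points and lines of the source, `S` = their incidence; `X`, `Z`, `I` = target. Input:
(I1) = `hinc` and the two agreement statements. Output: all calculi are `*`-homomorphisms and
incident ones commute.
-/

set_option linter.all false

namespace Vale.Agent.P092.H495

open Set Topology
open Vale.Agent.P092.H232 (Nin)

section hom

variable {X K : Type*} [TopologicalSpace X] [CompactSpace X]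
  [NormedAddCommGroup K] [InnerProductSpace ℂ K] [CompleteSpace K]

/-- a multiplicative map as a `*`-homomorphism -/
noncomputable def toHom (E : C(X, ℂ) →L[ℂ] (K →L[ℂ] K)) (hE : ∀ f, E (star f) = star (E f))
    (hE1 : E 1 = 1) (hm : ∀ f g, E (f * g) = E f * E g) : C(X, ℂ) →⋆ₐ[ℂ] (K →L[ℂ] K) where
  toFun := E
  map_one' := hE1
  map_mul' := hm
  map_zero' := map_zero E
  map_add' := map_add E
  commutes' r := by
    have h1 : algebraMap ℂ C(X, ℂ) r = r • 1 := Algebra.algebraMap_eq_smul_one r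
    have h2 : algebraMap ℂ (K →L[ℂ] K) r = r • 1 := Algebra.algebraMap_eq_smul_one r
    rw [h1, h2, map_smul, hE1]
  map_star' := hE

@[simp] lemma toHom_apply (E : C(X, ℂ) →L[ℂ] (K →L[ℂ] K)) (hE : ∀ f, E (star f) = star (E f))
    (hE1 : E 1 = 1) (hm : ∀ f g, E (f * g) = E f * E g) (f : C(X, ℂ)) :
    toHom E hE hE1 hm f = E f := rfl

end hom

variable {X Z K : Type*} [TopologicalSpace X] [CompactSpace X] [T2Space X]
  [TotallyDisconnectedSpace X] [TopologicalSpace Z] [CompactSpace Z] [T2Space Z]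
  [TotallyDisconnectedSpace Z] [NormedAddCommGroup K] [InnerProductSpace ℂ K] [CompleteSpace K]
  {C M : Type*}

/-- **[0] for quadrangles, ultrametric `k`** -/
theorem zero_all {I : X → Z → Prop} (hI : IsClosed {q : X × Z | I q.1 q.2})
    (huniq : ∀ x x', x ≠ x' → ∀ z z', I x z → I x' z → I x z' → I x' z' → z = z')
    (S : C → M → Prop) (E : C → (C(X, ℂ) →L[ℂ] (K →L[ℂ] K)))
    (F : M → (C(Z, ℂ) →L[ℂ] (K →L[ℂ] K))) (hE : ∀ c f, E c (star f) = star (E c f))
    (hF : ∀ m f, F m (star f) = star (F m f)) (hE1 : ∀ c, E c 1 = 1) (hF1 : ∀ m, F m 1 = 1)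
    (hinc : ∀ c m, S c m → ∀ u v, Nin I u v → E c u * F m v = 0)
    (agrF : ∀ c, ∀ ζ : K, (∀ m m', S c m → S c m' → ∀ g, F m g ζ = F m' g ζ) → ζ = 0)
    (agrE : ∀ m, ∀ ζ : K, (∀ c c', S c m → S c' m → ∀ f, E c f ζ = E c' f ζ) → ζ = 0) :
    (∀ c f g, E c (f * g) = E c f * E c g) ∧ (∀ m f g, F m (f * g) = F m f * F m g) ∧
      ∀ c m, S c m → ∀ f g, E c f * F m g = F m g * E c f := by
  have h1 : ∀ c f g, E c (f * g) = E c f * E c g := fun c f g =>
    mul_of_inc hI huniq (E c) (hE c) (hE1 c) (fun m : {m // S c m} => F m.1) (fun m => hF m.1)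
      (fun i j => (hF1 i.1).trans (hF1 j.1).symm) (fun i => hinc c i.1 i.2)
      (fun ζ h => agrF c ζ fun m m' hm hm' g => h ⟨m, hm⟩ ⟨m', hm'⟩ g) f g
  have h3 : ∀ c m, S c m → ∀ f g, E c f * F m g = F m g * E c f := fun c m hm f g =>
    comm_of_inc hI huniq (E c) (hE c) (hE1 c) (fun m : {m // S c m} => F m.1) (fun m => hF m.1)
      (fun i j => (hF1 i.1).trans (hF1 j.1).symm) (fun i => hinc c i.1 i.2)
      (fun ζ h => agrF c ζ fun m m' hm hm' g => h ⟨m, hm⟩ ⟨m', hm'⟩ g) (fun i => hF1 i.1)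
      ⟨m, hm⟩ f g
  have hI' : IsClosed {q : Z × X | I q.2 q.1} := hI.preimage continuous_swap
  have h2 : ∀ m f g, F m (f * g) = F m f * F m g := fun m f g =>
    mul_of_inc (I := fun z x => I x z) hI'
      (fun z z' hz x x' h1 h2 h3 h4 => by
        by_contra hx
        exact hz (huniq x x' hx z z' h1 h3 h2 h4))
      (F m) (hF m) (hF1 m) (fun c : {c // S c m} => E c.1) (fun c => hE c.1)
      (fun i j => (hE1 i.1).trans (hE1 j.1).symm)
      (fun i u v h => by
        have e : Nin I v u := fun x hx z hz => h z hz x hx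
        rw [← h3 i.1 m i.2]
        exact hinc i.1 m i.2 v u e)
      (fun ζ h => agrE m ζ fun c c' hc hc' f => h ⟨c, hc⟩ ⟨c', hc'⟩ f) f g
  exact ⟨h1, h2, h3⟩

end Vale.Agent.P092.H495
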