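import Vale.Agent.P092.H644.Gr3
import Vale.Agent.P092.H495.Zero

/-!
P092 (helper495), TEAM P: the Grassmannian over an ultrametric field is totally disconnected; the
point-line geometries in `ℙ k (ι → k)` as input of `zero_all`.
-/

set_option linter.all false

open TopologicalSpace Topology Set
open scoped LinearAlgebra.Projectivization

namespace Vale.Agent.P092.H495

open Vale.Agent.P092.H100.Gr
open Vale.Agent.P092.H644.Gr3 (p1 p1_le_closed mem_p1 p1_le_mk p1_inj)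

section gr

variable {k : Type*} [NontriviallyNormedField k] {ι : Type*} [Fintype ι] {j : ℕ}

/-- the subspaces which meet an open set of points -/
theorem meet_open {U : Set (ℙ k (ι → k))} (hU : IsOpen U) :
    IsOpen {L : Gr k ι j | ∃ x ∈ U, (p1 x).1 ≤ L.1} := by
  rw [← sp_oq.isQuotientMap.isOpen_preimage, isOpen_iff_mem_nhds]
  rintro v ⟨x, hx, hxv⟩
  have h1 : x.rep ∈ Submodule.span k (range v.1) := mem_p1.1 hxv
  obtain ⟨c, hc⟩ := (Submodule.mem_span_range_iff_exists_fun k).1 h1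
  let φ : Fr k ι j → (ι → k) := fun w => ∑ i, c i • w.1 i
  have hφ : Continuous φ := by
    refine continuous_finset_sum _ fun i _ => ?_
    exact (((continuous_apply i).comp fr_val_cont).const_smul (c i) :
      Continuous fun w : Fr k ι j => c i • w.1 i)
  have hφv : φ v = x.rep := hc
  have hne : ∀ᶠ w in 𝓝 v, φ w ≠ 0 :=
    hφ.continuousAt.eventually_ne (by rw [hφv]; exact x.rep_nonzero)
  have hO : IsOpen {y : {y : ι → k // y ≠ 0} | Vale.Agent.P092.H820.pj k ι y ∈ U} :=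
    hU.preimage Vale.Agent.P092.H820.pj_continuous
  obtain ⟨O, hO1, hO2⟩ := isOpen_induced_iff.1 hO
  have hxO : x.rep ∈ O := by
    have : (⟨x.rep, x.rep_nonzero⟩ : {y : ι → k // y ≠ 0}) ∈ Subtype.val ⁻¹' O := by
      rw [hO2]
      change Vale.Agent.P092.H820.pj k ι ⟨x.rep, x.rep_nonzero⟩ ∈ U
      have : Vale.Agent.P092.H820.pj k ι ⟨x.rep, x.rep_nonzero⟩ = x := x.mk_rep
      rw [this]
      exact hx
    exact this
  have hin : ∀ᶠ w in 𝓝 v, φ w ∈ O :=
    hφ.continuousAt.eventually_mem (hO1.mem_nhds (by rw [hφv]; exact hxO))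
  filter_upwards [hne, hin] with w hw1 hw2
  refine ⟨Vale.Agent.P092.H820.pj k ι ⟨φ w, hw1⟩, ?_, ?_⟩
  · have : (⟨φ w, hw1⟩ : {y : ι → k // y ≠ 0}) ∈ Subtype.val ⁻¹' O := hw2
    rw [hO2] at this
    exact this
  · refine p1_le_mk.2 ?_
    exact Submodule.sum_mem _ fun i _ =>
      Submodule.smul_mem _ _ (Submodule.subset_span ⟨i, rfl⟩)

variable [ProperSpace k] [IsUltrametricDist k]

/-- the Grassmannian over an ultrametric field is totally disconnected -/
instance tdGr : TotallyDisconnectedSpace (Gr k ι j) := by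
  have : TotallySeparatedSpace (Gr k ι j) := by
    rw [totallySeparatedSpace_iff_exists_isClopen]
    intro L L' hne
    have h1 : ¬ L.1 ≤ L'.1 := fun h => hne (eq_of_le h)
    obtain ⟨v, hvL, hvL'⟩ := SetLike.not_le_iff_exists.1 h1
    have hv0 : v ≠ 0 := fun h => hvL' (h ▸ zero_mem _)
    have hcl : IsClosed {x : ℙ k (ι → k) | (p1 x).1 ≤ L'.1} :=
      (p1_le_closed (j := j)).preimage (f := fun x => (x, L')) (by fun_prop)
    have hx : (Projectivization.mk k v hv0) ∈ {x : ℙ k (ι → k) | (p1 x).1 ≤ L'.1}ᶜ :=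
      fun h => hvL' (p1_le_mk.1 h)
    obtain ⟨U, hU, hxU, hUL⟩ := compact_exists_isClopen_in_isOpen hcl.isOpen_compl hx
    refine ⟨{M | ∃ x ∈ U, (p1 x).1 ≤ M.1}, ⟨?_, meet_open hU.isOpen⟩, ⟨_, hxU, ?_⟩, ?_⟩
    · exact Vale.Agent.P092.H835.isClosed_meet (p1_le_closed (j := j)) hU.isClosed
    · exact p1_le_mk.2 hvL
    · rintro ⟨x, hx, hxL⟩
      exact hUL hx hxL
  infer_instance

end gr

section lines

variable {k : Type*} [NontriviallyNormedField k] {ι : Type*} [Fintype ι]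

/-- two different points are on at most one line -/
theorem uniq_line {x x' : ℙ k (ι → k)} (h : x ≠ x') {L L' : Gr k ι 2} (h1 : (p1 x).1 ≤ L.1)
    (h2 : (p1 x').1 ≤ L.1) (h3 : (p1 x).1 ≤ L'.1) (h4 : (p1 x').1 ≤ L'.1) : L = L' := by
  have hne : p1 x ≠ p1 x' := fun he => h (p1_inj he)
  have hr : 2 ≤ Module.finrank k ↥((p1 x).1 ⊔ (p1 x').1) := lt_sup hne
  have e : ∀ {L : Gr k ι 2}, (p1 x).1 ≤ L.1 → (p1 x').1 ≤ L.1 → (p1 x).1 ⊔ (p1 x').1 = L.1 :=
    fun {L} ha hb => Submodule.eq_of_le_of_finrank_le (sup_le ha hb) (by rw [L.2]; exact hr)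
  exact Subtype.ext ((e h1 h2).symm.trans (e h3 h4))

variable [ProperSpace k] [IsUltrametricDist k]
  {K : Type*} [NormedAddCommGroup K] [InnerProductSpace ℂ K] [CompleteSpace K] {C M : Type*}

/-- **[0] for every closed set of lines** (all points; `Sp_(2n)(k)`: `𝓛` = isotropic lines) -/
theorem zero_lines {𝓛 : Set (Gr k ι 2)} [CompactSpace 𝓛] (S : C → M → Prop)
    (E : C → (C(ℙ k (ι → k), ℂ) →L[ℂ] (K →L[ℂ] K))) (F : M → (C(𝓛, ℂ) →L[ℂ] (K →L[ℂ] K)))
    (hE : ∀ c f, E c (star f) = star (E c f)) (hF : ∀ m f, F m (star f) = star (F m f))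
    (hE1 : ∀ c, E c 1 = 1) (hF1 : ∀ m, F m 1 = 1)
    (hinc : ∀ c m, S c m → ∀ u v, Vale.Agent.P092.H232.Nin
      (fun (x : ℙ k (ι → k)) (L : 𝓛) => (p1 x).1 ≤ L.1.1) u v → E c u * F m v = 0)
    (agrF : ∀ c, ∀ ζ : K, (∀ m m', S c m → S c m' → ∀ g, F m g ζ = F m' g ζ) → ζ = 0)
    (agrE : ∀ m, ∀ ζ : K, (∀ c c', S c m → S c' m → ∀ f, E c f ζ = E c' f ζ) → ζ = 0) :
    (∀ c f g, E c (f * g) = E c f * E c g) ∧ (∀ m f g, F m (f * g) = F m f * F m g) ∧
      ∀ c m, S c m → ∀ f g, E c f * F m g = F m g * E c f :=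
  zero_all (I := fun (x : ℙ k (ι → k)) (L : 𝓛) => (p1 x).1 ≤ L.1.1)
    ((p1_le_closed (k := k) (ι := ι) (j := 2)).preimage
      (f := fun q : ℙ k (ι → k) × 𝓛 => (q.1, q.2.1)) (by fun_prop))
    (fun x x' hx z z' h1 h2 h3 h4 => Subtype.ext (uniq_line hx h1 h2 h3 h4))
    S E F hE hF hE1 hF1 hinc agrF agrE

end lines

end Vale.Agent.P092.H495
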