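import Vale.Agent.P092.H232.Join

/-!
P092 (helper495): the maps `E_c` are multiplicative, from incidence alone; #6726 (1)-(5) of
helper918 (= #6703 of helper192) over ultrametric fields.

`X`, `Z` = points and lines of the target (compact, totally disconnected), `I` = incidence (closed;
two different points are on at most one common line). `E` (a source point) and `F i` (the source
lines through it) are only bounded, linear, `*`-preserving and normalised; no positivity is used.
-/

set_option linter.all false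

namespace Vale.Agent.P092.H495

open Set Topology
open Vale.Agent.P092.H232 (two_ind split_inc split_fun Nin)
open Vale.Agent.P092.H218 (mul_ap)

/-! ### Locally constant functions -/

section dens

/-- the indicator function of a clopen set -/
noncomputable def ic {X : Type*} [TopologicalSpace X] {U : Set X} (hU : IsClopen U) : C(X, ℂ) :=
  ⟨LocallyConstant.charFn ℂ hU, (LocallyConstant.charFn ℂ hU).isLocallyConstant.continuous⟩

variable {X : Type*} [TopologicalSpace X] {U : Set X}

lemma ic_in (hU : IsClopen U) {x : X} (hx : x ∈ U) : ic hU x = 1 := by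
  change (LocallyConstant.charFn ℂ hU) x = 1
  simp [LocallyConstant.coe_charFn, hx]

lemma ic_off (hU : IsClopen U) {x : X} (hx : x ∉ U) : ic hU x = 0 := by
  change (LocallyConstant.charFn ℂ hU) x = 0
  simp [LocallyConstant.coe_charFn, hx]

lemma ic_sup (hU : IsClopen U) : tsupport ⇑(ic hU) ⊆ U := by
  refine closure_minimal (fun x hx => ?_) hU.isClosed
  by_contra h
  exact hx (ic_off hU h)

lemma ic_compl (hU : IsClopen U) : ic hU + ic hU.compl = 1 := by
  ext x
  by_cases hx : x ∈ U
  · rw [ContinuousMap.add_apply, ic_in hU hx, ic_off hU.compl (fun h => h hx)]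
    simp
  · rw [ContinuousMap.add_apply, ic_off hU hx, ic_in hU.compl hx]
    simp

variable [CompactSpace X]

/-- induction for locally constant functions -/
theorem lc_ind {P : C(X, ℂ) → Prop} (h0 : P 0) (hadd : ∀ f g, P f → P g → P (f + g))
    (hsmul : ∀ (c : ℂ) f, P f → P (c • f)) (h : ∀ (U : Set X) (hU : IsClopen U), P (ic hU))
    (f : C(X, ℂ)) (hf : IsLocallyConstant f) : P f := by
  classical
  have hfin : (Set.range f).Finite := hf.range_finite
  have key : f = ∑ c ∈ hfin.toFinset, c • ic (hf.isClopen_fiber c) := by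
    ext x
    rw [ContinuousMap.sum_apply, Finset.sum_eq_single (f x)]
    · rw [ContinuousMap.smul_apply, ic_in]
      · simp
      · rfl
    · intro c _ hc
      rw [ContinuousMap.smul_apply, ic_off, smul_zero]
      exact fun h => hc h.symm
    · intro h
      exact (h (hfin.mem_toFinset.2 ⟨x, rfl⟩)).elim
  rw [key]
  exact Finset.sum_induction _ P hadd h0 fun c _ => hsmul _ _ (h _ _)

variable [T2Space X] [TotallyDisconnectedSpace X]

/-- locally constant functions are dense -/
theorem dense_lc : Dense {f : C(X, ℂ) | IsLocallyConstant f} := by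
  classical
  let A : StarSubalgebra ℂ C(X, ℂ) :=
    { carrier := {f | IsLocallyConstant f}
      mul_mem' := fun {f g} hf hg => IsLocallyConstant.mul hf hg
      add_mem' := fun {f g} hf hg => IsLocallyConstant.add hf hg
      algebraMap_mem' := fun r => IsLocallyConstant.const r
      star_mem' := fun {f} hf => IsLocallyConstant.comp hf star }
  have hsep : A.toSubalgebra.SeparatesPoints := by
    intro x y hxy
    obtain ⟨U, hU, hx, hy⟩ := exists_isClopen_of_totally_separated hxy
    refine ⟨ic hU, ⟨ic hU, (LocallyConstant.charFn ℂ hU).isLocallyConstant, rfl⟩, ?_⟩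
    rw [ic_in hU hx, ic_off hU hy]
    exact one_ne_zero
  have h := ContinuousMap.starSubalgebra_topologicalClosure_eq_top_of_separatesPoints A hsep
  intro f
  have : f ∈ A.topologicalClosure := by
    rw [h]
    trivial
  exact this

/-- induction for continuous functions -/
theorem dense_ind {P : C(X, ℂ) → Prop} (hc : IsClosed {f | P f}) (h0 : P 0)
    (hadd : ∀ f g, P f → P g → P (f + g)) (hsmul : ∀ (c : ℂ) f, P f → P (c • f))
    (h : ∀ (U : Set X) (hU : IsClopen U), P (ic hU)) (f : C(X, ℂ)) : P f := by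
  have : f ∈ closure {f : C(X, ℂ) | IsLocallyConstant f} := dense_lc f
  exact hc.closure_subset_iff.2 (fun g hg => lc_ind h0 hadd hsmul h g hg) this

end dens

section main

variable {X Z K : Type*} [TopologicalSpace X] [CompactSpace X] [T2Space X]
  [TopologicalSpace Z] [CompactSpace Z] [T2Space Z] [TotallyDisconnectedSpace Z]
  [NormedAddCommGroup K] [InnerProductSpace ℂ K] [CompleteSpace K]

/-- (1) `E u * D g * E a = 0` for disjoint supports, if it is true for `g = 1` -/
theorem cut_zero {I : X → Z → Prop} (hI : IsClosed {q : X × Z | I q.1 q.2})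
    (huniq : ∀ x x', x ≠ x' → ∀ z z', I x z → I x' z → I x z' → I x' z' → z = z')
    (E : C(X, ℂ) →L[ℂ] (K →L[ℂ] K)) (D : C(Z, ℂ) →L[ℂ] (K →L[ℂ] K))
    (hl : ∀ u v, Nin I u v → E u * D v = 0) (hr : ∀ u v, Nin I u v → D v * E u = 0)
    (h1 : ∀ u a : C(X, ℂ), Disjoint (tsupport ⇑u) (tsupport ⇑a) → E u * D 1 * E a = 0)
    (g : C(Z, ℂ)) (u a : C(X, ℂ)) (hua : Disjoint (tsupport ⇑u) (tsupport ⇑a)) :
    E u * D g * E a = 0 := by
  have hcl : IsClosed {g : C(Z, ℂ) | E u * D g * E a = 0} :=
    isClosed_eq (by fun_prop) continuous_const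
  have hlc : {g : C(Z, ℂ) | IsLocallyConstant g} ⊆ {g : C(Z, ℂ) | E u * D g * E a = 0} := by
    intro g hg
    refine two_ind (A := K →L[ℂ] K) (S₁ := tsupport ⇑u) (S₂ := tsupport ⇑a)
      (fun u' a' => E u' * D g * E a')
      (fun u' u'' a' => by simp only [map_add, add_mul])
      (fun u' a' a'' => by simp only [mul_add, map_add])
      (isClosed_tsupport _).isCompact (isClosed_tsupport _).isCompact
      (fun x hx y hy => ?_) u a subset_rfl subset_rfl
    have hxy : x ≠ y := by
      rintro rfl
      exact disjoint_left.1 hua hx hy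
    -- `D v` is cut for every `v` whose support contains no common line of `x` and `y`
    have base : ∀ v : C(Z, ℂ), (∀ z ∈ tsupport ⇑v, I x z → I y z → False) →
        ∃ O V, IsOpen O ∧ x ∈ O ∧ IsOpen V ∧ y ∈ V ∧ ∀ u' a' : C(X, ℂ), tsupport ⇑u' ⊆ O →
          tsupport ⇑a' ⊆ V → E u' * D v * E a' = 0 := by
      intro v hv
      obtain ⟨v₁, v₂, hv, O, V, hO, hxO, hV, hyV, h1, h2⟩ := split_inc hI hI v hv
      refine ⟨O, V, hO, hxO, hV, hyV, fun u' a' hu' ha' => ?_⟩
      rw [hv, map_add, mul_add, add_mul, hl _ _ (h1 _ hu'), zero_mul, zero_add, mul_assoc,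
        hr _ _ (h2 _ ha'), mul_zero]
    by_cases hc : ∃ z₀, I x z₀ ∧ I y z₀
    · obtain ⟨z₀, hx0, hy0⟩ := hc
      have hopen : IsOpen {z | g z = g z₀} := hg.isOpen_fiber (g z₀)
      obtain ⟨O, V, hO, hxO, hV, hyV, h⟩ := base (g - (g z₀) • 1) (by
        intro z hz hxz hyz
        have hz0 : z = z₀ := huniq x y hxy z z₀ hxz hyz hx0 hy0
        have : z₀ ∉ tsupport ⇑(g - (g z₀) • (1 : C(Z, ℂ))) := by
          rw [notMem_tsupport_iff_eventuallyEq]
          filter_upwards [hopen.mem_nhds rfl] with w hw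
          have : g w = g z₀ := hw
          simp [this]
        exact this (hz0 ▸ hz))
      obtain ⟨O₂, V₂, hO₂, hV₂, hx₂, hy₂, hd⟩ := t2_separation hxy
      refine ⟨O ∩ O₂, V ∩ V₂, hO.inter hO₂, ⟨hxO, hx₂⟩, hV.inter hV₂, ⟨hyV, hy₂⟩,
        fun u' a' hu' ha' => ?_⟩
      have e1 := h u' a' (hu'.trans inter_subset_left) (ha'.trans inter_subset_left)
      have e2 := h1 u' a' (hd.mono (hu'.trans inter_subset_right) (ha'.trans inter_subset_right))
      have e3 : g = (g - (g z₀) • 1) + (g z₀) • 1 := by abel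
      rw [e3, map_add, mul_add, add_mul, e1, zero_add, map_smul, mul_smul_comm, smul_mul_assoc,
        e2, smul_zero]
    · obtain ⟨O, V, hO, hxO, hV, hyV, h⟩ := base g (fun z _ hxz hyz => hc ⟨z, hxz, hyz⟩)
      exact ⟨O, V, hO, hxO, hV, hyV, fun u' a' hu' ha' => h u' a' hu' ha'⟩
  exact hcl.closure_subset_iff.2 hlc (dense_lc g)

/-- (2) an operator which is cut by disjoint supports commutes -/
theorem comm_of_cut [TotallyDisconnectedSpace X] (E : C(X, ℂ) →L[ℂ] (K →L[ℂ] K)) (hE1 : E 1 = 1)
    (T : K →L[ℂ] K)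
    (h : ∀ u a : C(X, ℂ), Disjoint (tsupport ⇑u) (tsupport ⇑a) → E u * T * E a = 0)
    (f : C(X, ℂ)) : E f * T = T * E f := by
  refine dense_ind (P := fun f => E f * T = T * E f) (isClosed_eq (by fun_prop) (by fun_prop))
    (by simp) (fun f g hf hg => by simp only [map_add, add_mul, mul_add, hf, hg])
    (fun c f hf => by simp only [map_smul, smul_mul_assoc, mul_smul_comm, hf])
    (fun U hU => ?_) f
  have e : E (ic hU) + E (ic hU.compl) = 1 := by rw [← map_add, ic_compl, hE1]
  have d : Disjoint (tsupport ⇑(ic hU)) (tsupport ⇑(ic hU.compl)) :=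
    disjoint_compl_right.mono (ic_sup hU) (ic_sup hU.compl)
  have e1 : E (ic hU) * T * E (ic hU.compl) = 0 := h _ _ d
  have e2 : E (ic hU.compl) * T * E (ic hU) = 0 := h _ _ d.symm
  have e3 : E (ic hU) * T = E (ic hU) * T * E (ic hU) := by
    conv_lhs => rw [← mul_one (E (ic hU) * T), ← e, mul_add, e1, add_zero]
  have e4 : T * E (ic hU) = E (ic hU) * T * E (ic hU) := by
    conv_lhs => rw [← one_mul (T * E (ic hU)), ← e, add_mul, ← mul_assoc, ← mul_assoc, e2,
      add_zero]
  rw [e3, ← e4]

/-- a map which kills pairs of disjoint supports is multiplicative -/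
theorem mul_of_disj [TotallyDisconnectedSpace X] (E : C(X, ℂ) →L[ℂ] (K →L[ℂ] K)) (hE1 : E 1 = 1)
    (h : ∀ u a : C(X, ℂ), Disjoint (tsupport ⇑u) (tsupport ⇑a) → E u * E a = 0)
    (f g : C(X, ℂ)) : E (f * g) = E f * E g := by
  refine dense_ind (P := fun g => E (f * g) = E f * E g)
    (isClosed_eq (by fun_prop) (by fun_prop))
    (by simp) (fun g g' hf hg => by simp only [map_add, mul_add, hf, hg])
    (fun c g hf => by simp only [map_smul, mul_smul_comm, hf])
    (fun U hU => ?_) g
  have e : E (ic hU) + E (ic hU.compl) = 1 := by rw [← map_add, ic_compl, hE1]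
  have s1 : ∀ {V : Set X} (hV : IsClopen V), tsupport ⇑(f * ic hV) ⊆ V := fun hV =>
    (Vale.Agent.P092.H232.tsupport_mul_r _ _).trans (ic_sup hV)
  have e1 : E (f * ic hU) * E (ic hU.compl) = 0 :=
    h _ _ (disjoint_compl_right.mono (s1 hU) (ic_sup hU.compl))
  have e2 : E (f * ic hU.compl) * E (ic hU) = 0 :=
    h _ _ (disjoint_compl_left.mono (s1 hU.compl) (ic_sup hU))
  have e3 : f = f * ic hU + f * ic hU.compl := by rw [← mul_add, ic_compl, mul_one]
  calc E (f * ic hU) = E (f * ic hU) * (E (ic hU) + E (ic hU.compl)) := by rw [e, mul_one]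
    _ = E (f * ic hU) * E (ic hU) := by rw [mul_add, e1, add_zero]
    _ = (E (f * ic hU) + E (f * ic hU.compl)) * E (ic hU) := by rw [add_mul, e2, add_zero]
    _ = E f * E (ic hU) := by rw [← map_add, ← e3]

variable [TotallyDisconnectedSpace X] {ι : Type*} {I : X → Z → Prop}
  (hI : IsClosed {q : X × Z | I q.1 q.2})
  (huniq : ∀ x x', x ≠ x' → ∀ z z', I x z → I x' z → I x z' → I x' z' → z = z')
  (E : C(X, ℂ) →L[ℂ] (K →L[ℂ] K)) (hE : ∀ f, E (star f) = star (E f)) (hE1 : E 1 = 1)
  (F : ι → C(Z, ℂ) →L[ℂ] (K →L[ℂ] K)) (hF : ∀ i f, F i (star f) = star (F i f))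
  (hF1 : ∀ i j, F i 1 = F j 1) (hinc : ∀ i u v, Nin I u v → E u * F i v = 0)

omit [CompactSpace X] [T2Space X] [TotallyDisconnectedSpace X] in
lemma tsup_star (u : C(X, ℂ)) : tsupport ⇑(star u) = tsupport ⇑u := by
  unfold tsupport
  congr 1
  ext x; simp [Function.mem_support]

lemma nin_star {u : C(X, ℂ)} {v : C(Z, ℂ)} (h : Nin I u v) : Nin I (star u) (star v) := by
  intro x hx z hz
  rw [tsup_star] at hx hz
  exact h x hx z hz

include hI huniq hE hE1 hF hF1 hinc

/-- **#6726 (1)-(4)**: `E` is multiplicative, if the vectors on which all `F i` agree are `0`. -/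
theorem mul_of_inc (agr : ∀ ζ : K, (∀ i j g, F i g ζ = F j g ζ) → ζ = 0) (f g : C(X, ℂ)) :
    E (f * g) = E f * E g := by
  have hinc' : ∀ i u v, Nin I u v → F i v * E u = 0 := fun i u v h => by
    have h1 := congrArg star (hinc i _ _ (nin_star h))
    rwa [star_mul, ← hE, ← hF, star_star, star_star, star_zero] at h1
  refine mul_of_disj E hE1 (fun u a hua => ?_) f g
  have key : ∀ i j v, E u * E a * (F i - F j) v = 0 := by
    intro i j v
    have hcut := fun u a hua => cut_zero hI huniq E (F i - F j)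
      (fun u v h => by simp [mul_sub, hinc _ _ _ h])
      (fun u v h => by simp [sub_mul, hinc' _ _ _ h])
      (fun u a _ => by simp [hF1 i j]) v u a hua
    rw [mul_assoc, comm_of_cut E hE1 _ hcut a, ← mul_assoc]
    exact hcut u a hua
  have hst : star (E u * E a) = 0 := by
    ext ξ
    refine agr _ fun i j v => ?_
    have h1 := congrArg star (key i j (star v))
    have h2 : (F i - F j) v * star (E u * E a) = 0 := by
      rw [star_mul, star_zero] at h1
      rw [← h1]
      congr 1
      simp [ContinuousLinearMap.sub_apply, hF]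
    have h3 := congrArg (fun S : K →L[ℂ] K => S ξ) h2
    simp only [ContinuousLinearMap.sub_apply, sub_mul] at h3
    exact sub_eq_zero.1 h3
  have := congrArg star hst
  rwa [star_star, star_zero] at this

/-- **#6726 (5)**: `E` commutes with the `F i` -/
theorem comm_of_inc (agr : ∀ ζ : K, (∀ i j g, F i g ζ = F j g ζ) → ζ = 0)
    (hF1' : ∀ i, F i 1 = 1) (i : ι) (f : C(X, ℂ)) (g : C(Z, ℂ)) : E f * F i g = F i g * E f := by
  have hm := mul_of_inc hI huniq E hE hE1 F hF hF1 hinc agr
  have hinc' : ∀ i u v, Nin I u v → F i v * E u = 0 := fun i u v h => by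
    have h1 := congrArg star (hinc i _ _ (nin_star h))
    rwa [star_mul, ← hE, ← hF, star_star, star_star, star_zero] at h1
  refine comm_of_cut E hE1 _ (fun u a hua => ?_) f
  refine cut_zero hI huniq E (F i) (hinc i) (hinc' i) (fun u a hua => ?_) g u a hua
  rw [hF1', mul_one, ← hm]
  have : u * a = 0 := by
    ext x
    rw [ContinuousMap.mul_apply, ContinuousMap.zero_apply, mul_eq_zero]
    by_contra hc
    push Not at hc
    exact disjoint_left.1 hua (subset_tsupport _ hc.1) (subset_tsupport _ hc.2)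
  rw [this, map_zero]

end main

end Vale.Agent.P092.H495
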