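import Vale.Agent.P092.H495.Ucp
import Vale.Agent.P092.H828.P.Q0c
import Vale.Agent.P092.SP.UL

/-!
P092 (helper495), TEAM P, P-TEXT P3 over ultrametric `k`, in the letters of helper828 (`UL`,
`Loc`, `Loc0`, `Dis`): two different letters, masses, any ultrafilters.
-/

set_option linter.all false

namespace Vale.Agent.P092.H495

open Set Topology
open Vale.Agent.P092.H232 (two_ind split_inc split_fun Nin)
open Vale.Agent.P092.H828.P (UL StarP Loc Loc0 Dis dis_of_loc)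

/-- the two `UL`s are the same -/
theorem ul_of {Y K : Type*} [TopologicalSpace Y] [CompactSpace Y] [NormedAddCommGroup K]
    [InnerProductSpace ℂ K] [CompleteSpace K] {E : C(Y, ℂ) →ₗ[ℂ] (K →L[ℂ] K)} {p : ℝ}
    (h : SP.UL E p) : UL E p where
  one := h.one
  star := h.star
  bes {ι} s v ξ := by
    classical
    have h1 := h.bes s.card (fun i => v (s.equivFin.symm i)) ξ
    have e1 : ∑ i, ‖E (v (s.equivFin.symm i)) ξ‖ ^ 2 = ∑ i ∈ s, ‖E (v i) ξ‖ ^ 2 := by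
      rw [← Finset.sum_coe_sort s (fun i => ‖E (v i) ξ‖ ^ 2)]
      exact Equiv.sum_comp s.equivFin.symm (fun i : s => ‖E (v i) ξ‖ ^ 2)
    have e2 : ∑ i, Star.star (v (s.equivFin.symm i)) * v (s.equivFin.symm i) =
        ∑ i ∈ s, Star.star (v i) * v i := by
      rw [← Finset.sum_coe_sort s (fun i => Star.star (v i) * v i)]
      exact Equiv.sum_comp s.equivFin.symm (fun i : s => Star.star (v i) * v i)
    rw [e1, e2] at h1
    exact h1

section main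

variable {X Z K : Type*} [TopologicalSpace X] [CompactSpace X] [T2Space X]
  [TopologicalSpace Z] [CompactSpace Z] [T2Space Z] [TotallyDisconnectedSpace Z]
  [NormedAddCommGroup K] [InnerProductSpace ℂ K] [CompleteSpace K]

/-- **(3.0)**, two letters: `E u * D g * E' a = 0` for disjoint supports, if true for `g = 1` -/
theorem cut2 {I : X → Z → Prop} (hI : IsClosed {q : X × Z | I q.1 q.2})
    (huniq : ∀ x x', x ≠ x' → ∀ z z', I x z → I x' z → I x z' → I x' z' → z = z')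
    (E E' : C(X, ℂ) →ₗ[ℂ] (K →L[ℂ] K)) (D : C(Z, ℂ) →ₗ[ℂ] (K →L[ℂ] K)) (hD : Continuous D)
    (hl : ∀ u v, Nin I u v → E u * D v = 0) (hr : ∀ u v, Nin I u v → D v * E' u = 0)
    (h1 : ∀ u a : C(X, ℂ), Disjoint (tsupport ⇑u) (tsupport ⇑a) → E u * D 1 * E' a = 0)
    (g : C(Z, ℂ)) (u a : C(X, ℂ)) (hua : Disjoint (tsupport ⇑u) (tsupport ⇑a)) :
    E u * D g * E' a = 0 := by
  have hcl : IsClosed {g : C(Z, ℂ) | E u * D g * E' a = 0} :=
    isClosed_eq (by fun_prop) continuous_const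
  have hlc : {g : C(Z, ℂ) | IsLocallyConstant g} ⊆ {g : C(Z, ℂ) | E u * D g * E' a = 0} := by
    intro g hg
    refine two_ind (A := K →L[ℂ] K) (S₁ := tsupport ⇑u) (S₂ := tsupport ⇑a)
      (fun u' a' => E u' * D g * E' a')
      (fun u' u'' a' => by simp only [map_add, add_mul])
      (fun u' a' a'' => by simp only [mul_add, map_add])
      (isClosed_tsupport _).isCompact (isClosed_tsupport _).isCompact
      (fun x hx y hy => ?_) u a subset_rfl subset_rfl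
    have hxy : x ≠ y := by
      rintro rfl
      exact disjoint_left.1 hua hx hy
    -- `D v` is cut for every `v` whose support contains no common line of `x` and `y`
    have base : ∀ v : C(Z, ℂ), (∀ z ∈ tsupport ⇑v, I x z → I y z → False) →
        ∃ O V, IsOpen O ∧ x ∈ O ∧ IsOpen V ∧ y ∈ V ∧ ∀ u' a' : C(X, ℂ), tsupport ⇑u' ⊆ O →
          tsupport ⇑a' ⊆ V → E u' * D v * E' a' = 0 := by
      intro v hv
      obtain ⟨v₁, v₂, hv, O, V, hO, hxO, hV, hyV, h1, h2⟩ := split_inc hI hI v hv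
      refine ⟨O, V, hO, hxO, hV, hyV, fun u' a' hu' ha' => ?_⟩
      rw [hv, map_add, mul_add, add_mul, hl _ _ (h1 _ hu'), zero_mul, zero_add, mul_assoc,
        hr _ _ (h2 _ ha'), mul_zero]
    by_cases hc : ∃ z₀, I x z₀ ∧ I y z₀
    · obtain ⟨z₀, hx0, hy0⟩ := hc
      have hopen : IsOpen {z | g z = g z₀} := hg.isOpen_fiber (g z₀)
      obtain ⟨O, V, hO, hxO, hV, hyV, h⟩ := base (g - (g z₀) • 1) (by
        intro z hz hxz hyz
        have hz0 : z = z₀ := huniq x y hxy z z₀ hxz hyz hx0 hy0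
        have : z₀ ∉ tsupport ⇑(g - (g z₀) • (1 : C(Z, ℂ))) := by
          rw [notMem_tsupport_iff_eventuallyEq]
          filter_upwards [hopen.mem_nhds rfl] with w hw
          have : g w = g z₀ := hw
          simp [this]
        exact this (hz0 ▸ hz))
      obtain ⟨O₂, V₂, hO₂, hV₂, hx₂, hy₂, hd⟩ := t2_separation hxy
      refine ⟨O ∩ O₂, V ∩ V₂, hO.inter hO₂, ⟨hxO, hx₂⟩, hV.inter hV₂, ⟨hyV, hy₂⟩,
        fun u' a' hu' ha' => ?_⟩
      have e1 := h u' a' (hu'.trans inter_subset_left) (ha'.trans inter_subset_left)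
      have e2 := h1 u' a' (hd.mono (hu'.trans inter_subset_right) (ha'.trans inter_subset_right))
      have e3 : g = (g - (g z₀) • 1) + (g z₀) • 1 := by abel
      rw [e3, map_add, mul_add, add_mul, e1, zero_add, map_smul, mul_smul_comm, smul_mul_assoc,
        e2, smul_zero]
    · obtain ⟨O, V, hO, hxO, hV, hyV, h⟩ := base g (fun z _ hxz hyz => hc ⟨z, hxz, hyz⟩)
      exact ⟨O, V, hO, hxO, hV, hyV, fun u' a' hu' ha' => h u' a' hu' ha'⟩
  exact hcl.closure_subset_iff.2 hlc (dense_lc g)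

/-- (I1): no point of `supp u` on a line of `supp v` -/
def In1 (I : X → Z → Prop) (E : C(X, ℂ) →ₗ[ℂ] (K →L[ℂ] K)) (F : C(Z, ℂ) →ₗ[ℂ] (K →L[ℂ] K)) :
    Prop := ∀ u v, Nin I u v → E u * F v = 0

lemma nin_star2 {I : X → Z → Prop} {u : C(X, ℂ)} {v : C(Z, ℂ)} (h : Nin I u v) :
    Nin I (star u) (star v) := by
  intro x hx z hz
  rw [tsup_star] at hx hz
  exact h x hx z hz

/-- the adjoint of (I1) -/
lemma In1.adj {I : X → Z → Prop} {E : C(X, ℂ) →ₗ[ℂ] (K →L[ℂ] K)}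
    {F : C(Z, ℂ) →ₗ[ℂ] (K →L[ℂ] K)} (h : In1 I E F) (hE : ∀ f, E (star f) = star (E f))
    (hF : ∀ f, F (star f) = star (F f)) : ∀ u v, Nin I u v → F v * E u = 0 := fun u v hn => by
  have h1 := congrArg star (h _ _ (nin_star2 hn))
  rwa [star_mul, ← hE, ← hF, star_star, star_star, star_zero] at h1

/-- (I1) with points and lines exchanged -/
lemma In1.swap {I : X → Z → Prop} {E : C(X, ℂ) →ₗ[ℂ] (K →L[ℂ] K)}
    {F : C(Z, ℂ) →ₗ[ℂ] (K →L[ℂ] K)} (h : In1 I E F) (hE : ∀ f, E (star f) = star (E f))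
    (hF : ∀ f, F (star f) = star (F f)) : In1 (fun z x => I x z) F E := fun v u hn =>
  h.adj hE hF u v fun x hx z hz => hn z hz x hx

variable {I : X → Z → Prop} (hI : IsClosed {q : X × Z | I q.1 q.2})
  (huniq : ∀ x x', x ≠ x' → ∀ z z', I x z → I x' z → I x z' → I x' z' → z = z')
  {E E₁ E₂ : C(X, ℂ) →ₗ[ℂ] (K →L[ℂ] K)} {F F' : C(Z, ℂ) →ₗ[ℂ] (K →L[ℂ] K)} {p p₁ p₂ q : ℝ}

include hI huniq

/-- **(3.0)**: two letters `E₁`, `E₂`; the middle `F`, `F'` have the same mass -/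
theorem loc_um (h₁ : UL E₁ p₁) (h₂ : UL E₂ p₂) (hF : UL F q) (hF' : UL F' q)
    (i1 : In1 I E₁ F) (i1' : In1 I E₁ F') (i2 : In1 I E₂ F) (i2' : In1 I E₂ F') :
    Loc E₁ E₂ F F' := fun f f' hff' g =>
  cut2 hI huniq E₁ E₂ (F - F') (hF.continuous.sub hF'.continuous)
    (fun u v h => by
      rw [LinearMap.sub_apply, mul_sub, i1 u v h, i1' u v h, sub_zero])
    (fun u v h => by
      rw [LinearMap.sub_apply, sub_mul, i2.adj h₂.star hF.star u v h,
        i2'.adj h₂.star hF'.star u v h, sub_zero])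
    (fun u a _ => by rw [LinearMap.sub_apply, hF.one, hF'.one, sub_self, mul_zero, zero_mul])
    g f f' hff'

/-- the second locality input -/
theorem loc0_um (h₁ : UL E₁ p₁) (h₂ : UL E₂ p₂) (hF : UL F q) (i1 : In1 I E₁ F) (i2 : In1 I E₂ F)
    (hd : Dis E₁ E₂) : Loc0 E₁ E₂ F := fun f f' hff' g =>
  cut2 hI huniq E₁ E₂ F hF.continuous i1 (i2.adj h₂.star hF.star)
    (fun u a hua => by rw [hF.one, mul_smul_comm, mul_one, smul_mul_assoc, hd u a hua, smul_zero])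
    g f f' hff'

/-- disjoint supports: **(3.2)** and **(3.3)** in one statement -/
theorem dis_um (h₁ : UL E₁ p₁) (h₂ : UL E₂ p₂) (hp₂ : p₂ ≠ 0) (hF : UL F q) (hF' : UL F' q)
    (i1 : In1 I E₁ F) (i1' : In1 I E₁ F') (i2 : In1 I E₂ F) (i2' : In1 I E₂ F')
    (agr : ∀ ζ : K, (∀ g, F g ζ = F' g ζ) → ζ = 0) : Dis E₁ E₂ :=
  dis_of_loc h₂ hp₂ hF.star hF'.star (loc_um hI huniq h₁ h₂ hF hF' i1 i1' i2 i2')
    (loc_um hI huniq h₂ h₂ hF hF' i2 i2' i2 i2') agr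

/-- **(3.3)**, any two ultrafilters: `p₂ E₁ = p₁ E₂` -/
theorem eq_um (h₁ : UL E₁ p₁) (h₂ : UL E₂ p₂) (hp₂ : p₂ ≠ 0) (hF : UL F q) (hF' : UL F' q)
    (i1 : In1 I E₁ F) (i1' : In1 I E₁ F') (i2 : In1 I E₂ F) (i2' : In1 I E₂ F')
    (agr : ∀ ζ : K, (∀ g, F g ζ = F' g ζ) → ζ = 0) (f : C(X, ℂ)) :
    (p₂ : ℂ) • E₁ f = (p₁ : ℂ) • E₂ f := by
  have h := h₁.mul_of_disj h₂ (dis_um hI huniq h₁ h₂ hp₂ hF hF' i1 i1' i2 i2' agr) f 1
  rw [h₂.one, mul_one, mul_smul_comm, mul_one] at h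
  exact h

/-- **(3.3)**: `E f * E g = p E (f * g)` -/
theorem mul_um (hE : UL E p) (hp : p ≠ 0) (hF : UL F q) (hF' : UL F' q)
    (i : In1 I E F) (i' : In1 I E F') (agr : ∀ ζ : K, (∀ g, F g ζ = F' g ζ) → ζ = 0)
    (f g : C(X, ℂ)) : E f * E g = (p : ℂ) • E (f * g) :=
  hE.mul_of_disj hE (dis_um hI huniq hE hE hp hF hF' i i' i i' agr) f g

/-- **(3.4)**: `E` and `F` commute (`F'` is a second line through the point `E`) -/
theorem comm_um (hE : UL E p) (hp : p ≠ 0) (hF : UL F q) (hF' : UL F' q)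
    (i : In1 I E F) (i' : In1 I E F') (agr : ∀ ζ : K, (∀ g, F g ζ = F' g ζ) → ζ = 0)
    (f : C(X, ℂ)) (g : C(Z, ℂ)) : F g * E f = E f * F g :=
  Vale.Agent.P092.H828.P.comm_of_loc0 hE hp
    (loc0_um hI huniq hE hE hF i i (dis_um hI huniq hE hE hp hF hF' i i' i i' agr)) f g

/-- **(3.2) THE COINCIDENCE LEMMA**: two source points `E₁`, `E₂` on a line `m`, two other points
`F`, `F'` of `m` (letters in the lines of the target). -/
theorem pure_um [Nontrivial K] (h₁ : UL E₁ p) (h₂ : UL E₂ p) (hF : UL F q) (hF' : UL F' q)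
    (i1 : In1 I E₁ F) (i1' : In1 I E₁ F') (i2 : In1 I E₂ F) (i2' : In1 I E₂ F')
    (agrF : q ≠ 0 → ∀ ζ : K, (∀ g, F g ζ = F' g ζ) → ζ = 0)
    (agrE : p ≠ 0 → ∀ ζ : K, (∀ f, E₁ f ζ = E₂ f ζ) → ζ = 0) : p = 0 ∨ q = 0 := by
  by_contra h
  push Not at h
  obtain ⟨hp, hq⟩ := h
  have e := eq_um hI huniq h₁ h₂ hp hF hF' i1 i1' i2 i2' (agrF hq)
  obtain ⟨ζ, hζ⟩ := exists_ne (0 : K)
  refine hζ (agrE hp ζ fun f => ?_)
  have hp' : (p : ℂ) ≠ 0 := by exact_mod_cast hp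
  rw [smul_right_injective _ hp' (e f)]

end main

end Vale.Agent.P092.H495
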